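import Vale.Agent.Helper16.KTVG.Plan
import Vale.Agent.Helper13.SwitchChain
import Vale.Agent.Helper24.KTV.Rect
import Vale.Agent.Helper29.KTVG.Deg

/-!
# Switch chain on general graphs (problem P335): the block heat bath

For four distinct vertices `u v w z` the block consists of the four slots between `{u,v}`
and `{w,z}`.  The class of a graph under the block label is the graph itself, or the graph
together with its block switch when the block carries an alternating 4-cycle.
-/

namespace KTVG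

namespace H18

open Finset Vale.Agent.Helper13.Switch
open Classical

variable {n : ℕ}

/-- the block switch: the switch on the alternating 4-cycle carried by the block -/
noncomputable def swG (u v w z : Fin n) (G : SimpleGraph (Fin n)) : SimpleGraph (Fin n) :=
  if Allowed G u w z v then switchGraph G u w z v else switchGraph G u z w v

/-- the eight ordered block slots -/
theorem block_cases {u v w z x y : Fin n} (h : Rbet {u, v} {w, z} x y) :
    (x = u ∧ y = w) ∨ (x = u ∧ y = z) ∨ (x = v ∧ y = w) ∨ (x = v ∧ y = z) ∨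
      (x = w ∧ y = u) ∨ (x = z ∧ y = u) ∨ (x = w ∧ y = v) ∨ (x = z ∧ y = v) := by
  simp only [Rbet, Finset.mem_insert, Finset.mem_singleton] at h
  tauto

theorem block_iff {u v w z x y : Fin n} :
    Rbet {u, v} {w, z} x y ↔
    ((x = u ∧ y = w) ∨ (x = u ∧ y = z) ∨ (x = v ∧ y = w) ∨ (x = v ∧ y = z) ∨
      (x = w ∧ y = u) ∨ (x = z ∧ y = u) ∨ (x = w ∧ y = v) ∨ (x = z ∧ y = v)) := by
  simp only [Rbet, Finset.mem_insert, Finset.mem_singleton]
  tauto

theorem allowed_of_swB_left {u v w z : Fin n} {G : SimpleGraph (Fin n)}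
    (h : G.Adj u w ∧ G.Adj v z ∧ ¬ G.Adj u z ∧ ¬ G.Adj v w) : Allowed G u w z v :=
  ⟨h.1, h.2.1.symm, h.2.2.1, fun h' => h.2.2.2 h'.symm⟩

theorem allowed_of_swB_right {u v w z : Fin n} {G : SimpleGraph (Fin n)}
    (h : G.Adj u z ∧ G.Adj v w ∧ ¬ G.Adj u w ∧ ¬ G.Adj v z) : Allowed G u z w v :=
  ⟨h.1, h.2.1.symm, h.2.2.1, fun h' => h.2.2.2 h'.symm⟩

theorem swB_iff_allowed {u v w z : Fin n} {G : SimpleGraph (Fin n)} :
    SwB u v w z G ↔ Allowed G u w z v ∨ Allowed G u z w v := by
  unfold SwB Allowed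
  constructor
  · rintro (h | h)
    · exact Or.inl ⟨h.1, h.2.1.symm, h.2.2.1, fun h' => h.2.2.2 h'.symm⟩
    · exact Or.inr ⟨h.1, h.2.1.symm, h.2.2.1, fun h' => h.2.2.2 h'.symm⟩
  · rintro (h | h)
    · exact Or.inl ⟨h.1, h.2.1.symm, h.2.2.1, fun h' => h.2.2.2 h'.symm⟩
    · exact Or.inr ⟨h.1, h.2.1.symm, h.2.2.1, fun h' => h.2.2.2 h'.symm⟩

/-- off the block the block switch changes nothing -/
theorem swG_adj_off {u v w z : Fin n} (G : SimpleGraph (Fin n))
    {x y : Fin n} (hxy : ¬ Rbet {u, v} {w, z} x y) :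
    (swG u v w z G).Adj x y ↔ G.Adj x y := by
  rw [block_iff] at hxy
  have n1 : ¬ (x = u ∧ y = w) := fun h => hxy (Or.inl h)
  have n2 : ¬ (x = u ∧ y = z) := fun h => hxy (Or.inr (Or.inl h))
  have n3 : ¬ (x = v ∧ y = w) := fun h => hxy (Or.inr (Or.inr (Or.inl h)))
  have n4 : ¬ (x = v ∧ y = z) := fun h => hxy (Or.inr (Or.inr (Or.inr (Or.inl h))))
  have n5 : ¬ (x = w ∧ y = u) := fun h => hxy (Or.inr (Or.inr (Or.inr (Or.inr (Or.inl h)))))
  have n6 : ¬ (x = z ∧ y = u) :=
    fun h => hxy (Or.inr (Or.inr (Or.inr (Or.inr (Or.inr (Or.inl h))))))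
  have n7 : ¬ (x = w ∧ y = v) :=
    fun h => hxy (Or.inr (Or.inr (Or.inr (Or.inr (Or.inr (Or.inr (Or.inl h)))))))
  have n8 : ¬ (x = z ∧ y = v) :=
    fun h => hxy (Or.inr (Or.inr (Or.inr (Or.inr (Or.inr (Or.inr (Or.inr h)))))))
  unfold swG
  split_ifs with hA
  · rw [switchGraph_adj]
    constructor
    · rintro (⟨h, -, -⟩ | ⟨h, -⟩)
      · exact h
      · rcases h with (h | h) | (h | h)
        · exact absurd h n2
        · exact absurd h n6
        · exact absurd h n7
        · exact absurd h n3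
    · intro h
      left
      refine ⟨h, ?_, ?_⟩
      · rintro (h | h)
        · exact n1 h
        · exact n5 h
      · rintro (h | h)
        · exact n8 h
        · exact n4 h
  · rw [switchGraph_adj]
    constructor
    · rintro (⟨h, -, -⟩ | ⟨h, -⟩)
      · exact h
      · rcases h with (h | h) | (h | h)
        · exact absurd h n1
        · exact absurd h n5
        · exact absurd h n8
        · exact absurd h n4
    · intro h
      left
      refine ⟨h, ?_, ?_⟩
      · rintro (h | h)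
        · exact n2 h
        · exact n6 h
      · rintro (h | h)
        · exact n7 h
        · exact n3 h

/-- on the block the block switch flips every slot, when the block carries an alternating
4-cycle -/
theorem swG_adj_block {u v w z : Fin n} (h4 : D4 u v w z) {G : SimpleGraph (Fin n)}
    (hS : SwB u v w z G) {x y : Fin n} (hxy : Rbet {u, v} {w, z} x y) :
    (swG u v w z G).Adj x y ↔ ¬ G.Adj x y := by
  obtain ⟨huv, huw, huz, hvw, hvz, hwz⟩ := h4
  have hc := block_cases hxy
  unfold swG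
  rcases hS with hS | hS
  · have hA : Allowed G u w z v := allowed_of_swB_left hS
    rw [if_pos hA, switchGraph_adj]
    obtain ⟨a1, a2, a3, a4⟩ := hS
    have a1' := a1.symm
    have a2' := a2.symm
    have a3' : ¬ G.Adj z u := fun h => a3 h.symm
    have a4' : ¬ G.Adj w v := fun h => a4 h.symm
    rcases hc with ⟨rfl, rfl⟩ | ⟨rfl, rfl⟩ | ⟨rfl, rfl⟩ | ⟨rfl, rfl⟩ | ⟨rfl, rfl⟩ | ⟨rfl, rfl⟩ |
      ⟨rfl, rfl⟩ | ⟨rfl, rfl⟩ <;> simp_all <;> tauto
  · have hA : Allowed G u z w v := allowed_of_swB_right hS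
    have hnA : ¬ Allowed G u w z v := fun h => hS.2.2.1 h.1
    rw [if_neg hnA, switchGraph_adj]
    obtain ⟨a1, a2, a3, a4⟩ := hS
    have a1' := a1.symm
    have a2' := a2.symm
    have a3' : ¬ G.Adj w u := fun h => a3 h.symm
    have a4' : ¬ G.Adj z v := fun h => a4 h.symm
    rcases hc with ⟨rfl, rfl⟩ | ⟨rfl, rfl⟩ | ⟨rfl, rfl⟩ | ⟨rfl, rfl⟩ | ⟨rfl, rfl⟩ | ⟨rfl, rfl⟩ |
      ⟨rfl, rfl⟩ | ⟨rfl, rfl⟩ <;> simp_all <;> tauto

theorem rb_uw {u v w z : Fin n} : Rbet {u, v} {w, z} u w := block_iff.2 (Or.inl ⟨rfl, rfl⟩)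
theorem rb_uz {u v w z : Fin n} : Rbet {u, v} {w, z} u z :=
  block_iff.2 (Or.inr (Or.inl ⟨rfl, rfl⟩))
theorem rb_vw {u v w z : Fin n} : Rbet {u, v} {w, z} v w :=
  block_iff.2 (Or.inr (Or.inr (Or.inl ⟨rfl, rfl⟩)))
theorem rb_vz {u v w z : Fin n} : Rbet {u, v} {w, z} v z :=
  block_iff.2 (Or.inr (Or.inr (Or.inr (Or.inl ⟨rfl, rfl⟩))))

/-- the block switch stays in the degree class -/
theorem swG_mem {d : Fin n → ℕ} {u v w z : Fin n} (h4 : D4 u v w z) {G : SimpleGraph (Fin n)}
    (hG : G ∈ gOmega n d) (hS : SwB u v w z G) : swG u v w z G ∈ gOmega n d := by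
  obtain ⟨huv, huw, huz, hvw, hvz, hwz⟩ := h4
  rw [mem_gOmega] at hG ⊢
  intro i
  by_cases hA : Allowed G u w z v
  · have e : swG u v w z G = switchGraph G u w z v := if_pos hA
    rw [e, degree_switch hA huw huz huv hwz hvw.symm hvz.symm i]; exact hG i
  · have hA' : Allowed G u z w v := by
      rcases swB_iff_allowed.1 hS with h | h
      · exact absurd h hA
      · exact h
    have e : swG u v w z G = switchGraph G u z w v := if_neg hA
    rw [e, degree_switch hA' huz huw huv hwz.symm hvz.symm hvw.symm i]; exact hG i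

theorem swB_swG {u v w z : Fin n} (h4 : D4 u v w z) {G : SimpleGraph (Fin n)}
    (hS : SwB u v w z G) : SwB u v w z (swG u v w z G) := by
  have e1 := swG_adj_block h4 hS (rb_uw (u := u) (v := v) (w := w) (z := z))
  have e2 := swG_adj_block h4 hS (rb_uz (u := u) (v := v) (w := w) (z := z))
  have e3 := swG_adj_block h4 hS (rb_vw (u := u) (v := v) (w := w) (z := z))
  have e4 := swG_adj_block h4 hS (rb_vz (u := u) (v := v) (w := w) (z := z))
  unfold SwB at hS ⊢
  rw [e1, e2, e3, e4]
  tauto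

theorem swG_swG {u v w z : Fin n} (h4 : D4 u v w z) {G : SimpleGraph (Fin n)}
    (hS : SwB u v w z G) : swG u v w z (swG u v w z G) = G := by
  ext x y
  by_cases hb : Rbet {u, v} {w, z} x y
  · rw [swG_adj_block h4 (swB_swG h4 hS) hb, swG_adj_block h4 hS hb, not_not]
  · rw [swG_adj_off _ hb, swG_adj_off _ hb]

theorem swG_ne {u v w z : Fin n} (h4 : D4 u v w z) {G : SimpleGraph (Fin n)}
    (hS : SwB u v w z G) : swG u v w z G ≠ G := by
  intro h
  have e1 := swG_adj_block h4 hS (rb_uw (u := u) (v := v) (w := w) (z := z))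
  rw [h] at e1
  exact iff_not_self e1

theorem labB_swG {u v w z : Fin n} (G : SimpleGraph (Fin n)) :
    labB u v w z (swG u v w z G) = labB u v w z G := by
  unfold labB
  rw [slotLab_eq_iff]
  intro x y hxy
  exact swG_adj_off G hxy

theorem adj_iff_not_of_adjN_add {G G' : SimpleGraph (Fin n)} {x y : Fin n}
    (h : adjN G' x y + adjN G x y = 1) : G'.Adj x y ↔ ¬ G.Adj x y := by
  unfold adjN at h
  by_cases h1 : G'.Adj x y <;> by_cases h2 : G.Adj x y <;> simp_all

/-- the class of a graph under the block label: the graph itself, or its block switch -/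
theorem block_class {d : Fin n → ℕ} {u v w z : Fin n} (h4 : D4 u v w z)
    {G G' : SimpleGraph (Fin n)} (hG : G ∈ gOmega n d) (hG' : G' ∈ gOmega n d)
    (hl : labB u v w z G' = labB u v w z G) :
    G' = G ∨ (SwB u v w z G ∧ G' = swG u v w z G) := by
  have h4' := h4
  obtain ⟨huv, huw, huz, hvw, hvz, hwz⟩ := h4
  have hoff : ∀ x y, ¬ Rbet {u, v} {w, z} x y → (G'.Adj x y ↔ G.Adj x y) :=
    (slotLab_eq_iff _ _ _).1 hl
  have mu : adjN G' u w + adjN G' u z = adjN G u w + adjN G u z := by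
    refine adjN_pair_eq hG' hG u hwz (fun y hyw hyz => hoff u y ?_)
    intro hR
    simp only [Rbet, Finset.mem_insert, Finset.mem_singleton] at hR
    rcases hR with ⟨-, h | h⟩ | ⟨h | h, -⟩
    · exact hyw h
    · exact hyz h
    · exact huw h
    · exact huz h
  have mv : adjN G' v w + adjN G' v z = adjN G v w + adjN G v z := by
    refine adjN_pair_eq hG' hG v hwz (fun y hyw hyz => hoff v y ?_)
    intro hR
    simp only [Rbet, Finset.mem_insert, Finset.mem_singleton] at hR
    rcases hR with ⟨-, h | h⟩ | ⟨h | h, -⟩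
    · exact hyw h
    · exact hyz h
    · exact hvw h
    · exact hvz h
  have mw : adjN G' w u + adjN G' w v = adjN G w u + adjN G w v := by
    refine adjN_pair_eq hG' hG w huv (fun y hyu hyv => hoff w y ?_)
    intro hR
    simp only [Rbet, Finset.mem_insert, Finset.mem_singleton] at hR
    rcases hR with ⟨h | h, -⟩ | ⟨-, h | h⟩
    · exact huw h.symm
    · exact hvw h.symm
    · exact hyu h
    · exact hyv h
  have mz : adjN G' z u + adjN G' z v = adjN G z u + adjN G z v := by
    refine adjN_pair_eq hG' hG z huv (fun y hyu hyv => hoff z y ?_)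
    intro hR
    simp only [Rbet, Finset.mem_insert, Finset.mem_singleton] at hR
    rcases hR with ⟨h | h, -⟩ | ⟨-, h | h⟩
    · exact huz h.symm
    · exact hvz h.symm
    · exact hyu h
    · exact hyv h
  rw [adjN_comm G' w u, adjN_comm G' w v, adjN_comm G w u, adjN_comm G w v] at mw
  rw [adjN_comm G' z u, adjN_comm G' z v, adjN_comm G z u, adjN_comm G z v] at mz
  have b1 := adjN_le_one G u w
  have b2 := adjN_le_one G u z
  have b3 := adjN_le_one G v w
  have b4 := adjN_le_one G v z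
  have b1' := adjN_le_one G' u w
  have b2' := adjN_le_one G' u z
  have b3' := adjN_le_one G' v w
  have b4' := adjN_le_one G' v z
  by_cases h : adjN G' u w = adjN G u w
  · left
    have e2 : adjN G' u z = adjN G u z := by omega
    have e3 : adjN G' v w = adjN G v w := by omega
    have e4 : adjN G' v z = adjN G v z := by omega
    ext x y
    by_cases hb : Rbet {u, v} {w, z} x y
    · rcases block_cases hb with ⟨rfl, rfl⟩ | ⟨rfl, rfl⟩ | ⟨rfl, rfl⟩ | ⟨rfl, rfl⟩ | ⟨rfl, rfl⟩ |
        ⟨rfl, rfl⟩ | ⟨rfl, rfl⟩ | ⟨rfl, rfl⟩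
      · exact adj_iff_of_adjN_eq h
      · exact adj_iff_of_adjN_eq e2
      · exact adj_iff_of_adjN_eq e3
      · exact adj_iff_of_adjN_eq e4
      · exact adj_iff_of_adjN_eq (by rw [adjN_comm G', adjN_comm G]; exact h)
      · exact adj_iff_of_adjN_eq (by rw [adjN_comm G', adjN_comm G]; exact e2)
      · exact adj_iff_of_adjN_eq (by rw [adjN_comm G', adjN_comm G]; exact e3)
      · exact adj_iff_of_adjN_eq (by rw [adjN_comm G', adjN_comm G]; exact e4)
    · exact hoff x y hb
  · right
    have f1 : adjN G' u w + adjN G u w = 1 := by omega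
    have f2 : adjN G' u z + adjN G u z = 1 := by omega
    have f3 : adjN G' v w + adjN G v w = 1 := by omega
    have f4 : adjN G' v z + adjN G v z = 1 := by omega
    have g1 : adjN G u w = adjN G v z := by omega
    have g2 : adjN G u z = adjN G v w := by omega
    have g3 : adjN G u w + adjN G u z = 1 := by omega
    have hS : SwB u v w z G := by
      unfold SwB
      by_cases hc : adjN G u w = 1
      · left
        refine ⟨(adjN_eq_one_iff G u w).1 hc, (adjN_eq_one_iff G v z).1 (by omega),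
          (adjN_eq_zero_iff G u z).1 (by omega), (adjN_eq_zero_iff G v w).1 (by omega)⟩
      · right
        refine ⟨(adjN_eq_one_iff G u z).1 (by omega), (adjN_eq_one_iff G v w).1 (by omega),
          (adjN_eq_zero_iff G u w).1 (by omega), (adjN_eq_zero_iff G v z).1 (by omega)⟩
    refine ⟨hS, ?_⟩
    ext x y
    by_cases hb : Rbet {u, v} {w, z} x y
    · rw [swG_adj_block h4' hS hb]
      rcases block_cases hb with ⟨rfl, rfl⟩ | ⟨rfl, rfl⟩ | ⟨rfl, rfl⟩ | ⟨rfl, rfl⟩ | ⟨rfl, rfl⟩ |
        ⟨rfl, rfl⟩ | ⟨rfl, rfl⟩ | ⟨rfl, rfl⟩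
      · exact adj_iff_not_of_adjN_add f1
      · exact adj_iff_not_of_adjN_add f2
      · exact adj_iff_not_of_adjN_add f3
      · exact adj_iff_not_of_adjN_add f4
      · exact adj_iff_not_of_adjN_add (by rw [adjN_comm G', adjN_comm G]; exact f1)
      · exact adj_iff_not_of_adjN_add (by rw [adjN_comm G', adjN_comm G]; exact f2)
      · exact adj_iff_not_of_adjN_add (by rw [adjN_comm G', adjN_comm G]; exact f3)
      · exact adj_iff_not_of_adjN_add (by rw [adjN_comm G', adjN_comm G]; exact f4)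
    · rw [swG_adj_off _ hb]
      exact hoff x y hb

theorem class_of_swB {d : Fin n → ℕ} {u v w z : Fin n} (h4 : D4 u v w z)
    {G : SimpleGraph (Fin n)} (hG : G ∈ gOmega n d) (hS : SwB u v w z G) :
    (gOmega n d).filter (fun y => labB u v w z y = labB u v w z G) = {G, swG u v w z G} := by
  ext y
  simp only [Finset.mem_filter, Finset.mem_insert, Finset.mem_singleton]
  constructor
  · rintro ⟨hy, hl⟩
    rcases block_class h4 hG hy hl with h | ⟨-, h⟩
    · exact Or.inl h
    · exact Or.inr h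
  · rintro (rfl | rfl)
    · exact ⟨hG, rfl⟩
    · exact ⟨swG_mem h4 hG hS, labB_swG G⟩

theorem class_of_not_swB {d : Fin n → ℕ} {u v w z : Fin n} (h4 : D4 u v w z)
    {G : SimpleGraph (Fin n)} (hG : G ∈ gOmega n d) (hS : ¬ SwB u v w z G) :
    (gOmega n d).filter (fun y => labB u v w z y = labB u v w z G) = {G} := by
  ext y
  simp only [Finset.mem_filter, Finset.mem_singleton]
  constructor
  · rintro ⟨hy, hl⟩
    rcases block_class h4 hG hy hl with h | ⟨h, -⟩
    · exact h
    · exact absurd h hS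
  · rintro rfl
    exact ⟨hG, rfl⟩

theorem cexpL_labB_swB {d : Fin n → ℕ} {u v w z : Fin n} (h4 : D4 u v w z)
    (f : SimpleGraph (Fin n) → ℝ) {G : SimpleGraph (Fin n)} (hG : G ∈ gOmega n d)
    (hS : SwB u v w z G) :
    KTV.cexpL (gOmega n d) (labB u v w z) f G = (f G + f (swG u v w z G)) / 2 := by
  rw [KTV.cexpL_eq, class_of_swB h4 hG hS, Finset.sum_pair (swG_ne h4 hS).symm,
    Finset.card_pair (swG_ne h4 hS).symm]
  norm_num

theorem cexpL_labB_not_swB {d : Fin n → ℕ} {u v w z : Fin n} (h4 : D4 u v w z)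
    (f : SimpleGraph (Fin n) → ℝ) {G : SimpleGraph (Fin n)} (hG : G ∈ gOmega n d)
    (hS : ¬ SwB u v w z G) :
    KTV.cexpL (gOmega n d) (labB u v w z) f G = f G := by
  rw [KTV.cexpL_eq, class_of_not_swB h4 hG hS, Finset.sum_singleton, Finset.card_singleton]
  norm_num

theorem swBrel_iff {u v w z : Fin n} {G : SimpleGraph (Fin n)} (hS : SwB u v w z G)
    (y : SimpleGraph (Fin n)) : SwBrel u v w z G y ↔ y = swG u v w z G := by
  unfold SwBrel
  by_cases hA : Allowed G u w z v
  · have e : swG u v w z G = switchGraph G u w z v := if_pos hA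
    rw [e]
    constructor
    · rintro (⟨-, h⟩ | ⟨h', -⟩)
      · exact h
      · exact absurd hA.1 h'.2.2.1
    · intro h
      exact Or.inl ⟨hA, h⟩
  · have e : swG u v w z G = switchGraph G u z w v := if_neg hA
    rw [e]
    constructor
    · rintro (⟨h', -⟩ | ⟨-, h⟩)
      · exact absurd h' hA
      · exact h
    · intro h
      exact Or.inr ⟨(swB_iff_allowed.1 hS).resolve_left hA, h⟩

theorem not_swBrel {u v w z : Fin n} {G : SimpleGraph (Fin n)} (hS : ¬ SwB u v w z G)
    (y : SimpleGraph (Fin n)) : ¬ SwBrel u v w z G y := by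
  rintro (⟨h, -⟩ | ⟨h, -⟩)
  · exact hS (swB_iff_allowed.2 (Or.inl h))
  · exact hS (swB_iff_allowed.2 (Or.inr h))

/-- the block switch energy as a sum over the graphs with an alternating 4-cycle -/
theorem swD_eq {d : Fin n → ℕ} {u v w z : Fin n} (h4 : D4 u v w z)
    (f : SimpleGraph (Fin n) → ℝ) :
    swD (gOmega n d) u v w z f
      = ∑ G ∈ gOmega n d, if SwB u v w z G then (f G - f (swG u v w z G)) ^ 2 else 0 := by
  unfold swD KTV.dirichlet
  apply Finset.sum_congr rfl
  intro G hG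
  by_cases hS : SwB u v w z G
  · rw [if_pos hS]
    have hf : (gOmega n d).filter (SwBrel u v w z G) = {swG u v w z G} := by
      ext y
      simp only [Finset.mem_filter, Finset.mem_singleton]
      constructor
      · rintro ⟨-, hy⟩
        exact (swBrel_iff hS y).1 hy
      · rintro rfl
        exact ⟨swG_mem h4 hG hS, (swBrel_iff hS _).2 rfl⟩
    rw [hf, Finset.sum_singleton]
  · rw [if_neg hS]
    have hf : (gOmega n d).filter (SwBrel u v w z G) = ∅ := by
      ext y
      simp only [Finset.mem_filter, Finset.notMem_empty, iff_false, not_and]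
      intro _
      exact not_swBrel hS y
    rw [hf, Finset.sum_empty]

/-- **BlockStmt (a)** -/
theorem block_a {d : Fin n → ℕ} {u v w z : Fin n} (h4 : D4 u v w z)
    (f : SimpleGraph (Fin n) → ℝ) :
    ∑ G ∈ gOmega n d, (f G - KTV.cexpL (gOmega n d) (labB u v w z) f G) ^ 2
      = (1 / 4 : ℝ) * swD (gOmega n d) u v w z f := by
  rw [swD_eq h4 f, Finset.mul_sum]
  apply Finset.sum_congr rfl
  intro G hG
  by_cases hS : SwB u v w z G
  · rw [if_pos hS, cexpL_labB_swB h4 f hG hS]; ring
  · rw [if_neg hS, cexpL_labB_not_swB h4 f hG hS]; ring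

/-! ### Part (b) -/

theorem slotLab_mono {R R2 : Fin n → Fin n → Prop} (hR : ∀ x y, R x y → R2 x y)
    {G G' : SimpleGraph (Fin n)} (h : slotLab R G' = slotLab R G) :
    slotLab R2 G' = slotLab R2 G := by
  rw [slotLab_eq_iff] at h ⊢
  intro x y hxy
  exact h x y (fun hr => hxy (hR x y hr))

theorem labP_of_labB {u v w z : Fin n} {G G' : SimpleGraph (Fin n)}
    (h : labB u v w z G' = labB u v w z G) : labP u v G' = labP u v G := by
  refine slotLab_mono ?_ h
  intro x y hr
  rcases hr with ⟨h, -⟩ | ⟨-, h⟩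
  · exact Or.inl h
  · exact Or.inr h

theorem labP_of_labT {u v w z : Fin n} {G G' : SimpleGraph (Fin n)}
    (h : labT u v w z G' = labT u v w z G) : labP u v G' = labP u v G := by
  refine slotLab_mono ?_ h
  intro x y hr
  rcases hr with ⟨h, -⟩ | ⟨-, h⟩
  · exact Or.inl h
  · exact Or.inr h

theorem not_rout_of_block {u v w z x y : Fin n} (hb : Rbet {u, v} {w, z} x y) :
    ¬ Rbet {u, v} (Finset.univ \ {u, v, w, z}) x y := by
  intro hr
  rcases hb with ⟨hx, hy⟩ | ⟨hx, hy⟩
  · rcases hr with ⟨-, hy'⟩ | ⟨hx', -⟩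
    · simp only [Finset.mem_sdiff, Finset.mem_univ, true_and, Finset.mem_insert,
        Finset.mem_singleton] at hy hy'
      tauto
    · simp only [Finset.mem_sdiff, Finset.mem_univ, true_and, Finset.mem_insert,
        Finset.mem_singleton] at hx hx'
      tauto
  · rcases hr with ⟨-, hy'⟩ | ⟨hx', -⟩
    · simp only [Finset.mem_sdiff, Finset.mem_univ, true_and, Finset.mem_insert,
        Finset.mem_singleton] at hy hy'
      tauto
    · simp only [Finset.mem_sdiff, Finset.mem_univ, true_and, Finset.mem_insert,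
        Finset.mem_singleton] at hx hx'
      tauto

theorem labT_block {u v w z : Fin n} {G G' : SimpleGraph (Fin n)}
    (h : labT u v w z G' = labT u v w z G) :
    ∀ x y, Rbet {u, v} {w, z} x y → (G'.Adj x y ↔ G.Adj x y) :=
  fun x y hb => (slotLab_eq_iff _ _ _).1 h x y (not_rout_of_block hb)

theorem swB_congr {u v w z : Fin n} {G G' : SimpleGraph (Fin n)}
    (hb : ∀ x y, Rbet {u, v} {w, z} x y → (G'.Adj x y ↔ G.Adj x y)) :
    SwB u v w z G' ↔ SwB u v w z G := by
  unfold SwB
  rw [hb _ _ rb_uw, hb _ _ rb_vz, hb _ _ rb_uz, hb _ _ rb_vw]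

theorem labT_swG {u v w z : Fin n} (h4 : D4 u v w z) {G G' : SimpleGraph (Fin n)}
    (hS : SwB u v w z G) (h : labT u v w z G' = labT u v w z G) :
    labT u v w z (swG u v w z G') = labT u v w z (swG u v w z G) := by
  have hb := labT_block h
  have hS' : SwB u v w z G' := (swB_congr hb).2 hS
  unfold labT
  rw [slotLab_eq_iff]
  intro x y hxy
  by_cases hbl : Rbet {u, v} {w, z} x y
  · rw [swG_adj_block h4 hS' hbl, swG_adj_block h4 hS hbl, hb x y hbl]
  · rw [swG_adj_off _ hbl, swG_adj_off _ hbl]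
    exact (slotLab_eq_iff _ _ _).1 h x y hxy

/-- two graphs agreeing off `{u,v}`, on the slot `u v` and on the block carry the same
outer label -/
theorem agree_out {u v w z : Fin n} {H K : SimpleGraph (Fin n)}
    (hoff : ∀ a b, a ≠ u → a ≠ v → b ≠ u → b ≠ v → (H.Adj a b ↔ K.Adj a b))
    (huv' : H.Adj u v ↔ K.Adj u v)
    (hblock : ∀ a b, Rbet {u, v} {w, z} a b → (H.Adj a b ↔ K.Adj a b)) :
    labT u v w z H = labT u v w z K := by
  unfold labT
  rw [slotLab_eq_iff]
  intro a b hr
  by_cases ha : a = u ∨ a = v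
  · have hb : b = u ∨ b = v ∨ b = w ∨ b = z := by
      by_contra hb
      apply hr
      left
      refine ⟨?_, ?_⟩
      · simp only [Finset.mem_insert, Finset.mem_singleton]; exact ha
      · simp only [Finset.mem_sdiff, Finset.mem_univ, true_and, Finset.mem_insert,
          Finset.mem_singleton]
        exact hb
    rcases ha with ha | ha
    · rcases hb with hb | hb | hb | hb
      · rw [ha, hb]
        constructor <;> intro h <;> exact absurd h (SimpleGraph.irrefl _)
      · rw [ha, hb]; exact huv'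
      · rw [ha, hb]; exact hblock _ _ rb_uw
      · rw [ha, hb]; exact hblock _ _ rb_uz
    · rcases hb with hb | hb | hb | hb
      · rw [ha, hb]
        constructor
        · intro h; exact (huv'.1 h.symm).symm
        · intro h; exact (huv'.2 h.symm).symm
      · rw [ha, hb]
        constructor <;> intro h <;> exact absurd h (SimpleGraph.irrefl _)
      · rw [ha, hb]; exact hblock _ _ rb_vw
      · rw [ha, hb]; exact hblock _ _ rb_vz
  · by_cases hb : b = u ∨ b = v
    · have ha' : a = w ∨ a = z := by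
        by_contra ha'
        apply hr
        right
        refine ⟨?_, ?_⟩
        · simp only [Finset.mem_sdiff, Finset.mem_univ, true_and, Finset.mem_insert,
            Finset.mem_singleton]
          tauto
        · simp only [Finset.mem_insert, Finset.mem_singleton]; exact hb
      rcases ha' with ha' | ha' <;> rcases hb with hb | hb
      · rw [ha', hb]
        exact hblock _ _ (block_iff.2 (Or.inr (Or.inr (Or.inr (Or.inr (Or.inl ⟨rfl, rfl⟩))))))
      · rw [ha', hb]
        exact hblock _ _ (block_iff.2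
          (Or.inr (Or.inr (Or.inr (Or.inr (Or.inr (Or.inr (Or.inl ⟨rfl, rfl⟩))))))))
      · rw [ha', hb]
        exact hblock _ _ (block_iff.2
          (Or.inr (Or.inr (Or.inr (Or.inr (Or.inr (Or.inl ⟨rfl, rfl⟩)))))))
      · rw [ha', hb]
        exact hblock _ _ (block_iff.2
          (Or.inr (Or.inr (Or.inr (Or.inr (Or.inr (Or.inr (Or.inr ⟨rfl, rfl⟩))))))))
    · rw [not_or] at ha hb
      exact hoff a b ha.1 ha.2 hb.1 hb.2

theorem swB_block_eq {u v w z : Fin n} {G G' : SimpleGraph (Fin n)} (hS : SwB u v w z G)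
    (hS' : SwB u v w z G') (h : G'.Adj u w ↔ G.Adj u w) :
    ∀ a b, Rbet {u, v} {w, z} a b → (G'.Adj a b ↔ G.Adj a b) := by
  unfold SwB at hS hS'
  have e2 : G'.Adj u z ↔ G.Adj u z := by tauto
  have e3 : G'.Adj v w ↔ G.Adj v w := by tauto
  have e4 : G'.Adj v z ↔ G.Adj v z := by tauto
  intro a b hb
  rcases block_cases hb with ⟨ha, hb⟩ | ⟨ha, hb⟩ | ⟨ha, hb⟩ | ⟨ha, hb⟩ | ⟨ha, hb⟩ |
    ⟨ha, hb⟩ | ⟨ha, hb⟩ | ⟨ha, hb⟩
  · rw [ha, hb]; exact h
  · rw [ha, hb]; exact e2
  · rw [ha, hb]; exact e3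
  · rw [ha, hb]; exact e4
  · rw [ha, hb, SimpleGraph.adj_comm G' w u, SimpleGraph.adj_comm G w u]; exact h
  · rw [ha, hb, SimpleGraph.adj_comm G' z u, SimpleGraph.adj_comm G z u]; exact e2
  · rw [ha, hb, SimpleGraph.adj_comm G' w v, SimpleGraph.adj_comm G w v]; exact e3
  · rw [ha, hb, SimpleGraph.adj_comm G' z v, SimpleGraph.adj_comm G z v]; exact e4

theorem swB_block_ne {u v w z : Fin n} {G G' : SimpleGraph (Fin n)} (hS : SwB u v w z G)
    (hS' : SwB u v w z G') (h : ¬ (G'.Adj u w ↔ G.Adj u w)) :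
    ∀ a b, Rbet {u, v} {w, z} a b → (G'.Adj a b ↔ ¬ G.Adj a b) := by
  unfold SwB at hS hS'
  have e1 : G'.Adj u w ↔ ¬ G.Adj u w := by tauto
  have e2 : G'.Adj u z ↔ ¬ G.Adj u z := by tauto
  have e3 : G'.Adj v w ↔ ¬ G.Adj v w := by tauto
  have e4 : G'.Adj v z ↔ ¬ G.Adj v z := by tauto
  intro a b hb
  rcases block_cases hb with ⟨ha, hb⟩ | ⟨ha, hb⟩ | ⟨ha, hb⟩ | ⟨ha, hb⟩ | ⟨ha, hb⟩ |
    ⟨ha, hb⟩ | ⟨ha, hb⟩ | ⟨ha, hb⟩
  · rw [ha, hb]; exact e1
  · rw [ha, hb]; exact e2
  · rw [ha, hb]; exact e3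
  · rw [ha, hb]; exact e4
  · rw [ha, hb, SimpleGraph.adj_comm G' w u, SimpleGraph.adj_comm G w u]; exact e1
  · rw [ha, hb, SimpleGraph.adj_comm G' z u, SimpleGraph.adj_comm G z u]; exact e2
  · rw [ha, hb, SimpleGraph.adj_comm G' w v, SimpleGraph.adj_comm G w v]; exact e3
  · rw [ha, hb, SimpleGraph.adj_comm G' z v, SimpleGraph.adj_comm G z v]; exact e4

theorem rectU_block {d : Fin n → ℕ} {u v w z : Fin n} :
    KTV.H24.RectU (OmB (gOmega n d) u v w z) (labB u v w z) (labT u v w z) := by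
  intro a _ b _ h1 h2
  ext x y
  by_cases hbl : Rbet {u, v} {w, z} x y
  · exact labT_block h2 x y hbl
  · exact (slotLab_eq_iff _ _ _).1 h1 x y hbl

theorem rectM_block {d : Fin n → ℕ} {u v w z : Fin n} (h4 : D4 u v w z) :
    KTV.H24.RectM (OmB (gOmega n d) u v w z) (labB u v w z) (labT u v w z) := by
  intro x hx y hy y' hy' h1 h2
  obtain ⟨hxO, hxS⟩ := Finset.mem_filter.1 hx
  obtain ⟨hyO, hyS⟩ := Finset.mem_filter.1 hy
  obtain ⟨hy'O, hy'S⟩ := Finset.mem_filter.1 hy'
  rcases block_class h4 hxO hyO h1 with e | ⟨-, e⟩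
  · exact ⟨y', hy', by rw [e]; exact h2, rfl⟩
  · refine ⟨swG u v w z y', ?_, ?_, labB_swG y'⟩
    · exact Finset.mem_filter.2 ⟨swG_mem h4 hy'O hy'S, swB_swG h4 hy'S⟩
    · rw [e]; exact labT_swG h4 hxS h2

theorem join_block {d : Fin n → ℕ} {u v w z : Fin n} (h4 : D4 u v w z) :
    ∀ x ∈ OmB (gOmega n d) u v w z, ∀ t ∈ OmB (gOmega n d) u v w z,
      (labP u v t = labP u v x ↔ ∃ y ∈ OmB (gOmega n d) u v w z,
        labB u v w z y = labB u v w z x ∧ labT u v w z y = labT u v w z t) := by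
  intro x hx t ht
  obtain ⟨hxO, hxS⟩ := Finset.mem_filter.1 hx
  obtain ⟨htO, htS⟩ := Finset.mem_filter.1 ht
  have h4' := h4
  obtain ⟨huv, huw, huz, hvw, hvz, hwz⟩ := h4
  constructor
  · intro hl
    have huvs : t.Adj u v ↔ x.Adj u v := adj_uv_of_labP htO hxO huv hl
    have hoff := (labP_eq_iff u v t x).1 hl
    by_cases h : t.Adj u w ↔ x.Adj u w
    · refine ⟨x, hx, rfl, ?_⟩
      exact agree_out (fun a b h1 h2 h3 h5 => (hoff a b h1 h2 h3 h5).symm) huvs.symm
        (fun a b hb => (swB_block_eq hxS htS h a b hb).symm)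
    · refine ⟨swG u v w z x, Finset.mem_filter.2 ⟨swG_mem h4' hxO hxS, swB_swG h4' hxS⟩,
        labB_swG x, ?_⟩
      apply agree_out
      · intro a b h1 h2 h3 h5
        have hnb : ¬ Rbet {u, v} {w, z} a b := by
          intro hR
          simp only [Rbet, Finset.mem_insert, Finset.mem_singleton] at hR
          rcases hR with ⟨h | h, -⟩ | ⟨-, h | h⟩
          · exact h1 h
          · exact h2 h
          · exact h3 h
          · exact h5 h
        rw [swG_adj_off x hnb]
        exact (hoff a b h1 h2 h3 h5).symm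
      · have hnb : ¬ Rbet {u, v} {w, z} u v := by
          intro hR
          simp only [Rbet, Finset.mem_insert, Finset.mem_singleton] at hR
          rcases hR with ⟨-, h | h⟩ | ⟨h | h, -⟩
          · exact hvw h
          · exact hvz h
          · exact huw h
          · exact huz h
        rw [swG_adj_off x hnb]
        exact huvs.symm
      · intro a b hb
        rw [swG_adj_block h4' hxS hb]
        exact (swB_block_ne hxS htS h a b hb).symm
  · rintro ⟨y, -, h1, h2⟩
    have e1 := labP_of_labB h1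
    have e2 := labP_of_labT h2
    rw [← e2, e1]

theorem cexpL_filter_class {X Λ : Type*} (Om : Finset X) (lab : X → Λ) (S : X → Prop)
    (f : X → ℝ) (x : X) (h : ∀ y ∈ Om, lab y = lab x → S y) :
    KTV.cexpL (Om.filter S) lab f x = KTV.cexpL Om lab f x := by
  rw [KTV.cexpL_eq, KTV.cexpL_eq]
  have e : (Om.filter S).filter (fun y => lab y = lab x) = Om.filter (fun y => lab y = lab x) := by
    ext y
    simp only [Finset.mem_filter]
    constructor
    · rintro ⟨⟨hy, -⟩, hl⟩
      exact ⟨hy, hl⟩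
    · rintro ⟨hy, hl⟩
      exact ⟨⟨hy, h y hy hl⟩, hl⟩
  rw [e]

/-- **BlockStmt (b)** -/
theorem block_b {d : Fin n → ℕ} {u v w z : Fin n} (h4 : D4 u v w z)
    (f : SimpleGraph (Fin n) → ℝ) {G : SimpleGraph (Fin n)} (hG : G ∈ gOmega n d)
    (hS : SwB u v w z G) :
    KTV.cexpL (gOmega n d) (labB u v w z) (KTV.cexpL (gOmega n d) (labT u v w z) f) G
      = KTV.cexpL (OmB (gOmega n d) u v w z) (labP u v) f G := by
  have hGB : G ∈ OmB (gOmega n d) u v w z := Finset.mem_filter.2 ⟨hG, hS⟩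
  rw [← KTV.H24.rect_join (labP u v) rectU_block (rectM_block h4) (join_block h4) f hGB]
  have e1 : KTV.cexpL (OmB (gOmega n d) u v w z) (labB u v w z)
        (KTV.cexpL (gOmega n d) (labT u v w z) f) G
      = KTV.cexpL (gOmega n d) (labB u v w z) (KTV.cexpL (gOmega n d) (labT u v w z) f) G := by
    apply cexpL_filter_class
    intro y hy hl
    rcases block_class h4 hG hy hl with e | ⟨-, e⟩
    · rw [e]; exact hS
    · rw [e]; exact swB_swG h4 hS
  rw [← e1]
  apply KTV.cexpL_congr
  intro y hy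
  symm
  apply cexpL_filter_class
  intro y' _ hl
  exact (swB_congr (labT_block hl)).2 (Finset.mem_filter.1 hy).2

/-- **M3b-iii**: the block statement of the plan -/
theorem blockStmt (n : ℕ) (d : Fin n → ℕ) : BlockStmt n d := by
  intro u v w z h4 f
  exact ⟨block_a h4 f, fun G hG hS => block_b h4 f hG hS⟩

end H18

end KTVG
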